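import Vale.Agent.P295L74.Main

/-!
# The stable coordinate conjecture, with coordinates defined by generators
-/

namespace Vale.Agent.Results.P295.AGenerators

open Vale.Agent.P295L

/-- (1) The stable coordinate conjecture is false. (2) For every `n ≥ 5` some `f` in `R_n` is an
`m`-stable coordinate for all `m ≥ 1` and is not a coordinate. (3) `f` is a coordinate if and only
if some automorphism sends `f` to `x_i`. (4) Coordinates are `m`-stable for all `m`. -/
theorem result :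
    (¬ ∀ n : ℕ, 1 ≤ n → ∀ f : MvPolynomial (Fin n) ℂ, IsStable f → IsCoord f) ∧
    (∀ n : ℕ, 5 ≤ n → ∃ f : MvPolynomial (Fin n) ℂ,
      (∀ m : ℕ, 1 ≤ m → IsStableOfOrder m f) ∧ ¬ IsCoord f) ∧
    (∀ (n : ℕ) (i : Fin n) (f : MvPolynomial (Fin n) ℂ), IsCoord f ↔
      ∃ e : MvPolynomial (Fin n) ℂ ≃ₐ[ℂ] MvPolynomial (Fin n) ℂ, e f = MvPolynomial.X i) ∧
    ∀ n : ℕ, 1 ≤ n → ∀ f : MvPolynomial (Fin n) ℂ, IsCoord f → ∀ m : ℕ, IsStableOfOrder m f := by
  refine ⟨fun h => ?_, fun n hn => exists_example hn, fun n i f => coord_iff i,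
    fun n hn f h m => stable_of_coord ⟨0, hn⟩ h m⟩
  obtain ⟨f, h1, h2⟩ := exists_example (le_refl 5)
  exact h2 (h 5 (by norm_num) f ⟨1, le_rfl, h1 1 le_rfl⟩)

end Vale.Agent.Results.P295.AGenerators
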